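import Vale.Agent.P101K.Final
import Vale.Agent.P101K.Transfer
import Vale.Agent.P101K.NoChar

namespace Vale.Agent.Results.P101.DimensionDrop

open Vale.Agent.P101K

universe u

theorem result (A : Type u) [CStarAlgebra A] [Nontrivial A] [TopologicalSpace.SeparableSpace A]
    (ω : Ultrafilter ℕ) (hω : (ω : Filter ℕ) ≤ Filter.cofinite) :
    (∃ (F : Type u) (_ : CStarAlgebra F) (π : (ℕ → A) → F), IsFomega A ω F π) ∧
      ∀ (F : Type u) [CStarAlgebra F] (π : (ℕ → A) → F), IsFomega A ω F π →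
        (IsEmpty (F →⋆ₐ[ℂ] ℂ) ↔
          ∀ k : ℕ, Nonempty (DimDrop (Fin (k + 2)) (Fin (k + 3)) →⋆ₐ[ℂ] F)) := by
  refine ⟨?_, ?_⟩
  · obtain ⟨π, hπ⟩ := exists_fomega A ω
    exact ⟨Fom A ω, fomCStar A ω, π, hπ⟩
  · intro F _ π hF
    constructor
    · intro h k
      obtain ⟨θ⟩ := fomega_to_fom hF
      obtain ⟨θ'⟩ := fom_to_fomega hF
      have h' : IsEmpty (Fom A ω →⋆ₐ[ℂ] ℂ) := ⟨fun χ => h.false (χ.comp θ)⟩
      rw [Nat.cofinite_eq_atTop] at hω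
      obtain ⟨α⟩ := dimdrop_of_no_char (fom_hasCopies A ω hω) h' k
      exact ⟨θ'.comp α⟩
    · intro h
      obtain ⟨α⟩ := h 0
      exact ⟨fun χ => (dimdrop_no_char (Fin 2) (Fin 3)).false (χ.comp α)⟩

end Vale.Agent.Results.P101.DimensionDrop
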