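import Vale.Agent.P101K.Final
import Vale.Agent.P101K.Limit
import Vale.Agent.P101K.Amplify
import Vale.Agent.P101K.NoChar

namespace Vale.Agent.Results.P101.JiangSu

open Vale.Agent.P101K

universe u v

theorem result (A : Type u) [CStarAlgebra A] [Nontrivial A] [TopologicalSpace.SeparableSpace A]
    (ω : Ultrafilter ℕ) (hω : (ω : Filter ℕ) ≤ Filter.cofinite) :
    (∃ (F : Type u) (_ : CStarAlgebra F) (π : (ℕ → A) → F), IsFomega A ω F π) ∧
      ∀ (F : Type u) [CStarAlgebra F] (π : (ℕ → A) → F), IsFomega A ω F π →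
        ∀ (Z : Type v) [CStarAlgebra Z] [TopologicalSpace.SeparableSpace Z]
          (B : ℕ → StarSubalgebra ℂ Z), Monotone B → (∀ n, IsClosed (B n : Set Z)) →
          Dense (⋃ n, (B n : Set Z)) →
          (∀ n, ∃ p q : ℕ, 2 ≤ p ∧ 2 ≤ q ∧ Nat.Coprime p q ∧
            Nonempty (B n ≃⋆ₐ[ℂ] DimDrop (Fin p) (Fin q))) →
          (IsEmpty (F →⋆ₐ[ℂ] ℂ) ↔ Nonempty (Z →⋆ₐ[ℂ] F)) := by
  refine ⟨?_, ?_⟩
  · obtain ⟨π, hπ⟩ := exists_fomega A ω
    exact ⟨Fom A ω, fomCStar A ω, π, hπ⟩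
  · intro F _ π hF Z _ _ B hB hcl hd hpq
    constructor
    · intro hχ
      obtain ⟨θ⟩ := fomega_to_fom hF
      obtain ⟨θ'⟩ := fom_to_fomega hF
      have h' : IsEmpty (Fom A ω →⋆ₐ[ℂ] ℂ) := ⟨fun χ => hχ.false (χ.comp θ)⟩
      rw [Nat.cofinite_eq_atTop] at hω
      obtain ⟨Ψ⟩ := exists_lim_hom A ω hω B hB hd (fun n => by
        have : IsClosed (B n : Set Z) := hcl n
        let : CStarAlgebra (B n) := StarSubalgebra.cstarAlgebra (B n)
        obtain ⟨p, q, hp, hq, hc, ⟨ε⟩⟩ := hpq n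
        obtain ⟨k, ⟨β⟩⟩ := dimdrop_prime p q (by omega) (by omega) hc
        obtain ⟨α⟩ := dimdrop_of_no_char (fom_hasCopies A ω hω) h' k
        refine ⟨(α.comp β).comp (ε : B n →⋆ₐ[ℂ] DimDrop (Fin p) (Fin q)), fun z => ?_⟩
        exact NonUnitalStarAlgHom.norm_apply_le _ z)
      exact ⟨θ'.comp Ψ⟩
    · rintro ⟨Ψ⟩
      obtain ⟨p, q, hp, hq, -, ⟨ε⟩⟩ := hpq 0
      have : Nontrivial (Fin p) := Fin.nontrivial_iff_two_le.2 hp
      have : Nontrivial (Fin q) := Fin.nontrivial_iff_two_le.2 hq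
      exact ⟨fun χ => (dimdrop_no_char (Fin p) (Fin q)).false
        (((χ.comp Ψ).comp (B 0).subtype).comp
          (ε.symm : DimDrop (Fin p) (Fin q) →⋆ₐ[ℂ] B 0))⟩

end Vale.Agent.Results.P101.JiangSu
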